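import Crest.Agent.X262.Ult.Hyc
import Crest.Agent.X262.Bl53.Defs
import Crest.Agent.X262.Gwb.Typ
import Crest.Agent.X262.Chn.Blk
import Crest.Agent.X262.Int23.Bcg
import Crest.Agent.X262.Kill52.Kun

-- ▼ part X262/Bl53/Alg
section

/-!
# Row 262, road B, (BL) (helper53), part 1: the algebra

`F d I` are operators (elements of an algebra `R`), `op d I` are classes, `π` is an idempotent.
If the operators of `g`-degree zero are block diagonal and scalar on the image of `π`, the class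
`E` acts there by a non-zero series and `G * E` has no part of `g`-degree zero, then WDVV and the
divisor equation for `G` force all operators to be block diagonal and scalar on the image of `π`.
-/

set_option autoImplicit false

namespace Crest.Agent.X262.Bl53

open Finset

section Scal

variable {k R : Type*} [Field k] [Ring R] [Algebra k R]

variable (k) in
/-- block diagonal and scalar on the image of `π` -/
def Scal (π : R) : Subalgebra k R where
  carrier := {T | ∃ c : k, T * π = c • π ∧ π * T = c • π}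
  mul_mem' := by
    rintro a b ⟨c, h1, h2⟩ ⟨c', h3, h4⟩
    refine ⟨c * c', ?_, ?_⟩
    · rw [mul_assoc, h3, mul_smul_comm, h1, smul_smul, mul_comm]
    · rw [← mul_assoc, h2, smul_mul_assoc, h4, smul_smul]
  add_mem' := by
    rintro a b ⟨c, h1, h2⟩ ⟨c', h3, h4⟩
    exact ⟨c + c', by rw [add_mul, h1, h3, add_smul], by rw [mul_add, h2, h4, add_smul]⟩
  algebraMap_mem' c := ⟨c, by rw [Algebra.smul_def], by rw [Algebra.smul_def, Algebra.commutes]⟩


theorem mem_Scal_of {π T : R} (hπ : π * π = π) (h1 : T * π ∈ Submodule.span k {π})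
    (h2 : π * T ∈ Submodule.span k {π}) : T ∈ Scal k π := by
  obtain ⟨c, hc⟩ := Submodule.mem_span_singleton.1 h1
  obtain ⟨c', hc'⟩ := Submodule.mem_span_singleton.1 h2
  have h : c • π = c' • π := by
    have h3 : π * (T * π) = π * T * π := (mul_assoc _ _ _).symm
    rwa [← hc, ← hc', mul_smul_comm, smul_mul_assoc, hπ] at h3
  exact ⟨c, hc.symm, by rw [h, hc']⟩

/-- an element of `Scal` commutes with everything of the form `π u π` -/
theorem Scal.comm {π T u : R} (h : T ∈ Scal k π) (hu : π * u * π = u) : T * u = u * T := by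
  obtain ⟨c, h1, h2⟩ := h
  calc T * u = T * π * u * π := by conv_lhs => rw [← hu, ← mul_assoc, ← mul_assoc]
    _ = c • (π * u * π) := by rw [h1, smul_mul_assoc, smul_mul_assoc]
    _ = π * u * (π * T) := by rw [h2, mul_smul_comm]
    _ = u * T := by rw [← mul_assoc, hu]

end Scal

section Cancel

variable {k W A J : Type*} [Field k] [AddCommGroup W] [Module k W] [Finite J]
  [DecidableEq J]

/-- series in finitely many variables over a field have no zero divisors -/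
theorem cancel0 {c : (J →₀ ℕ) → k} {X : (J →₀ ℕ) → W} (hc : ∃ e, c e ≠ 0)
    (H : ∀ d, ∑ p ∈ antidiagonal d, c p.1 • X p.2 = 0) (d : J →₀ ℕ) : X d = 0 := by
  classical
  have := Fintype.ofFinite J
  let _ : LinearOrder J := LinearOrder.lift' (Fintype.equivFin J) (Fintype.equivFin J).injective
  by_contra h0
  obtain ⟨e, he, hmin⟩ := wellFounded_lt.has_min {e : Lex (J →₀ ℕ) | c (ofLex e) ≠ 0}
    ⟨toLex hc.choose, hc.choose_spec⟩
  obtain ⟨f, hf, hmin'⟩ := wellFounded_lt.has_min {f : Lex (J →₀ ℕ) | X (ofLex f) ≠ 0}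
    ⟨toLex d, h0⟩
  have h := H (ofLex e + ofLex f)
  rw [sum_eq_single_of_mem (ofLex e, ofLex f)
    (by simp only [HasAntidiagonal.mem_antidiagonal])] at h
  · exact (smul_ne_zero he hf) h
  · rintro ⟨a, b⟩ hab hne
    by_contra h1
    have ha : e ≤ toLex a := not_lt.1 (hmin (toLex a) (left_ne_zero_of_smul h1))
    have hb : f ≤ toLex b := not_lt.1 (hmin' (toLex b) (right_ne_zero_of_smul h1))
    have hs : toLex a + toLex b = e + f := mem_antidiagonal.1 hab
    obtain ⟨h2, h3⟩ := (add_eq_add_iff_eq_and_eq ha hb).1 hs.symm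
    exact hne (Prod.ext h2.symm h3.symm)

/-- the splittings with first part empty -/
theorem sum_antidiagonal_of {M : Type*} [AddCommMonoid M] (I : Multiset A)
    (f : Multiset A × Multiset A → M) (hf : ∀ q ∈ I.antidiagonal, q.1 ≠ 0 → f q = 0) :
    (I.antidiagonal.map f).sum = f (0, I) := by
  induction I using Multiset.induction_on generalizing f with
  | empty => simp
  | cons a I ih =>
    rw [Multiset.antidiagonal_cons, Multiset.map_add, Multiset.sum_add, Multiset.map_map,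
      Multiset.map_map, ih, Multiset.sum_eq_zero, add_zero]
    · rfl
    · intro x hx
      obtain ⟨q, hq, rfl⟩ := Multiset.mem_map.1 hx
      refine hf _ (Multiset.mem_antidiagonal.2 ?_) (Multiset.cons_ne_zero)
      rw [← Multiset.mem_antidiagonal.1 hq]
      simp
    · intro q hq h0
      refine hf _ (Multiset.mem_antidiagonal.2 ?_) h0
      rw [← Multiset.mem_antidiagonal.1 hq]
      simp

/-- cancellation of a series whose part without insertions is not zero -/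
theorem cancel {c : (J →₀ ℕ) → Multiset A → k} {X : (J →₀ ℕ) → Multiset A → W}
    (hc : ∃ e, c e 0 ≠ 0)
    (H : ∀ d (I : Multiset A), ∑ p ∈ antidiagonal d,
      (I.antidiagonal.map fun q => c p.1 q.1 • X p.2 q.2).sum = 0) (d : J →₀ ℕ) (I : Multiset A) :
    X d I = 0 := by
  induction hn : Multiset.card I using Nat.strong_induction_on generalizing I d with
  | _ n ih =>
    refine cancel0 (c := fun e => c e 0) (X := fun e => X e I) hc (fun d' => ?_) d
    rw [← H d' I]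
    refine sum_congr rfl fun p _ => ?_
    rw [sum_antidiagonal_of I (fun q => c p.1 q.1 • X p.2 q.2)]
    intro q hq h0
    have h1 := congrArg Multiset.card (Multiset.mem_antidiagonal.1 hq)
    rw [Multiset.card_add] at h1
    have h2 := Multiset.card_pos.2 h0
    rw [ih _ (by omega) _ _ rfl, smul_zero]

end Cancel

section Main

variable {k R A J : Type*} [Field k] [CharZero k] [Ring R] [Algebra k R] [Zero A] [Finite J]
  [DecidableEq J]

/-- the sum over all splittings of the degree and of the insertions -/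
noncomputable def cv {M : Type*} [AddCommMonoid M] (d : J →₀ ℕ) (I : Multiset A)
    (f : (J →₀ ℕ) → Multiset A → (J →₀ ℕ) → Multiset A → M) : M :=
  ∑ p ∈ antidiagonal d, (I.antidiagonal.map fun q => f p.1 q.1 p.2 q.2).sum

omit [Zero A] [Finite J] in
theorem cv_swap {M : Type*} [AddCommMonoid M] (d : J →₀ ℕ) (I : Multiset A)
    (f : (J →₀ ℕ) → Multiset A → (J →₀ ℕ) → Multiset A → M) :
    cv d I f = cv d I fun a b c e => f c e a b := by
  unfold cv
  conv_lhs => rw [← HasAntidiagonal.map_swap_antidiagonal, sum_map]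
  refine sum_congr rfl fun p _ => ?_
  conv_lhs => rw [← Multiset.map_swap_antidiagonal, Multiset.map_map]
  rfl

omit [Zero A] [Finite J] in
theorem map_cv {M N : Type*} [AddCommMonoid M] [AddCommMonoid N] (φ : M →+ N) (d : J →₀ ℕ)
    (I : Multiset A) (f : (J →₀ ℕ) → Multiset A → (J →₀ ℕ) → Multiset A → M) :
    φ (cv d I f) = cv d I fun a b c e => φ (f a b c e) := by
  unfold cv
  rw [map_sum]
  refine sum_congr rfl fun p _ => ?_
  rw [map_multiset_sum, Multiset.map_map]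
  rfl

omit [Zero A] [Finite J] in
theorem cv_congr {M : Type*} [AddCommMonoid M] {d : J →₀ ℕ} {I : Multiset A}
    {f f' : (J →₀ ℕ) → Multiset A → (J →₀ ℕ) → Multiset A → M}
    (h : ∀ a b c e, a + c = d → f a b c e = f' a b c e) : cv d I f = cv d I f' := by
  unfold cv
  refine sum_congr rfl fun p hp => ?_
  congr 1
  exact Multiset.map_congr rfl fun q _ => h _ _ _ _ (mem_antidiagonal.1 hp)

omit [Zero A] [Finite J] in
theorem cv_zero {M : Type*} [AddCommMonoid M] (d : J →₀ ℕ) (I : Multiset A) :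
    cv d I (fun _ _ _ _ => (0 : M)) = 0 := by
  simp [cv]

/-- **the algebra of (BL)** -/
theorem scal_of {F : (J →₀ ℕ) → Multiset A → R} {op : (J →₀ ℕ) → Multiset A → A} {π : R}
    (hπ : π * π = π) (j : J) (G E : A)
    (wdvv : ∀ d I a b, cv d I (fun d₁ I₁ d₂ I₂ => F d₁ (op d₂ (a ::ₘ b ::ₘ I₂) ::ₘ I₁)) =
      cv d I fun d₁ I₁ d₂ I₂ => F d₁ (a ::ₘ I₁) * F d₂ (b ::ₘ I₂))
    (F0 : ∀ d I, F d (0 ::ₘ I) = 0)
    (divF : ∀ d I, I ≠ 0 → F d (G ::ₘ I) = (d j : k) • F d I)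
    (divF0 : ∀ d, d j = 0 → F d {G} = 0)
    (divo : ∀ d I, d j = 0 → op d (G ::ₘ E ::ₘ I) = 0)
    (h0 : ∀ d I, d j = 0 → I ≠ 0 → F d I ∈ Scal k π)
    (hN : ∃ e, e j = 0 ∧ F e {E} * π ≠ 0) (d : J →₀ ℕ) (I : Multiset A) (hI : I ≠ 0) :
    F d I ∈ Scal k π := by
  classical
  have G0 : ∀ d I, d j = 0 → F d (G ::ₘ I) = 0 := fun d I hd => by
    by_cases h : I = 0
    · rw [h]
      exact divF0 d hd
    · rw [divF d I h, hd, Nat.cast_zero, zero_smul]
  choose! c hc1 hc2 using fun d I (hd : d j = 0) => h0 d (E ::ₘ I) hd Multiset.cons_ne_zero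
  let c' : (J →₀ ℕ) → Multiset A → k := fun d I => if d j = 0 then c d I else 0
  have hc : ∃ e, c' e 0 ≠ 0 := by
    obtain ⟨e, he, h⟩ := hN
    refine ⟨e, fun h1 => h ?_⟩
    have h2 : c e 0 = 0 := by simpa [c', he] using h1
    have h3 := hc1 e 0 he
    rwa [h2, zero_smul] at h3
  let S : Submodule k R := Submodule.span k {π}
  have hS1 : ∀ T ∈ Scal k π, S.mkQ (T * π) = 0 := by
    rintro T ⟨a, h, -⟩
    exact (Submodule.Quotient.mk_eq_zero _).2 (Submodule.mem_span_singleton.2 ⟨a, h.symm⟩)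
  have hS2 : ∀ T ∈ Scal k π, S.mkQ (π * T) = 0 := by
    rintro T ⟨a, -, h⟩
    exact (Submodule.Quotient.mk_eq_zero _).2 (Submodule.mem_span_singleton.2 ⟨a, h.symm⟩)
  induction hn : d j using Nat.strong_induction_on generalizing d I with
  | _ n ih =>
    rcases Nat.eq_zero_or_pos n with rfl | hpos
    · exact h0 d I hn hI
    have lhs : ∀ (d₁ : J →₀ ℕ) I₁ d₂ I₂, (d₁ + d₂) j = n →
        F d₁ (op d₂ (G ::ₘ E ::ₘ I₂) ::ₘ I₁) ∈ Scal k π := fun d₁ I₁ d₂ I₂ h => by
      by_cases h2 : d₂ j = 0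
      · rw [divo d₂ I₂ h2, F0]
        exact zero_mem _
      · exact ih (d₁ j) (by rw [Finsupp.add_apply] at h; omega) d₁ _ Multiset.cons_ne_zero rfl
    let φ₁ : R →+ R ⧸ S := S.mkQ.toAddMonoidHom.comp (AddMonoidHom.mulRight π)
    let φ₂ : R →+ R ⧸ S := S.mkQ.toAddMonoidHom.comp (AddMonoidHom.mulLeft π)
    have key : ∀ (φ : R →+ R ⧸ S) (μ : R → R → R), (∀ T ∈ Scal k π, φ T = 0) → (∀ T, μ T 0 = 0) →
        (∀ T ∈ Scal k π, ∀ T' ∈ Scal k π, μ T T' ∈ Scal k π) →
        (∀ d I T, d j = 0 → φ (μ (F d (E ::ₘ I)) T) = c d I • φ T) →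
        (∀ d I, cv d I (fun d₁ I₁ d₂ I₂ => F d₁ (op d₂ (G ::ₘ E ::ₘ I₂) ::ₘ I₁)) =
          cv d I fun d₁ I₁ d₂ I₂ => μ (F d₁ (E ::ₘ I₁)) (F d₂ (G ::ₘ I₂))) →
        φ (F d (G ::ₘ I)) = 0 := by
      intro φ μ hφ hμ0 hμ hφμ hw
      have := cancel (c := c')
        (X := fun d I => if d j = n then φ (F d (G ::ₘ I)) else 0) hc (fun d' I' => ?_) d I
      · simpa [hn] using this
      change cv d' I' (fun d₁ I₁ d₂ I₂ =>
        c' d₁ I₁ • if d₂ j = n then φ (F d₂ (G ::ₘ I₂)) else 0) = 0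
      by_cases hd' : d' j = n
      · have h1 := congrArg φ (hw d' I')
        rw [map_cv, map_cv, cv_congr (f' := fun _ _ _ _ => 0)
          (fun a b c e h => hφ _ (lhs a b c e (by rw [h, hd']))), cv_zero] at h1
        rw [h1]
        refine cv_congr fun d₁ I₁ d₂ I₂ h => ?_
        have h2 : d₁ j + d₂ j = n := by rw [← hd', ← h, Finsupp.add_apply]
        by_cases h3 : d₁ j = 0
        · rw [hφμ _ _ _ h3, if_pos (by omega)]
          simp [c', h3]
        · have h4 : c' d₁ I₁ = 0 := by simp [c', h3]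
          rw [h4, zero_smul]
          by_cases h5 : d₂ j = 0
          · rw [G0 _ _ h5, hμ0, map_zero]
          · exact (hφ _ (hμ _ (ih (d₁ j) (by omega) d₁ _ Multiset.cons_ne_zero rfl) _
              (ih (d₂ j) (by omega) d₂ _ Multiset.cons_ne_zero rfl))).symm
      · rw [cv_congr (f' := fun _ _ _ _ => 0), cv_zero]
        intro d₁ I₁ d₂ I₂ h
        have h2 : d₁ j + d₂ j = d' j := by rw [← h, Finsupp.add_apply]
        by_cases h3 : d₁ j = 0
        · rw [if_neg (by omega), smul_zero]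
        · simp [c', h3]
    have k1 := key φ₁ (fun a b => b * a) hS1 (fun T => zero_mul T)
      (fun T h T' h' => mul_mem h' h) (fun d I T hd => by
        change S.mkQ (T * F d (E ::ₘ I) * π) = c d I • S.mkQ (T * π)
        rw [mul_assoc, hc1 d I hd, mul_smul_comm, map_smul])
      (fun d I => by rw [wdvv, cv_swap])
    have k2 := key φ₂ (fun a b => a * b) hS2 (fun T => mul_zero T)
      (fun T h T' h' => mul_mem h h') (fun d I T hd => by
        change S.mkQ (π * (F d (E ::ₘ I) * T)) = c d I • S.mkQ (π * T)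
        rw [← mul_assoc, hc2 d I hd, smul_mul_assoc, map_smul])
      (fun d I => by
        rw [← wdvv]
        exact cv_congr fun _ _ _ _ _ => by rw [Multiset.cons_swap])
    have h1 : F d (G ::ₘ I) ∈ Scal k π := mem_Scal_of hπ
      ((Submodule.Quotient.mk_eq_zero _).1 k1) ((Submodule.Quotient.mk_eq_zero _).1 k2)
    have h2 : (n : k) ≠ 0 := Nat.cast_ne_zero.2 hpos.ne'
    rw [divF d I hI, hn] at h1
    have h3 := (Scal k π).smul_mem h1 (n : k)⁻¹
    rwa [smul_smul, inv_mul_cancel₀ h2, one_smul] at h3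

end Main

section Hyc

open Crest.Agent.X262.Ult

theorem antidiagonal_map {α β : Type*} (f : α → β) (I : Multiset α) :
    (I.map f).antidiagonal = I.antidiagonal.map fun q => (q.1.map f, q.2.map f) := by
  induction I using Multiset.induction_on with
  | empty => simp
  | cons a I ih =>
    simp only [Multiset.map_cons, Multiset.antidiagonal_cons, ih, Multiset.map_add,
      Multiset.map_map]
    congr 1 <;> exact Multiset.map_congr rfl fun q _ => by simp

variable {k : Type*} [Field k] [CharZero k] {J : Type} [Finite J] [DecidableEq J] {H : Type*}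
  [CommRing H] [Algebra k H]

/-- all members lie in `A` -/
def In (A : Submodule k H) (l : Multiset H) : Prop := ∀ a ∈ l, a ∈ A

/-- the operator of `(d, l)` preserves `B₀` and is a scalar on `B` -/
def Blk (Q : Hyc k J H) (B B₀ : Submodule k H) (d : J →₀ ℕ) (l : Multiset H) : Prop :=
  (∃ c : k, ∀ x ∈ B, Q.op d (x ::ₘ l) = c • x) ∧ ∀ x ∈ B₀, Q.op d (x ::ₘ l) ∈ B₀

/-- **(BL) for a hypercommutative algebra** -/
theorem blk_of (Q : Hyc k J H) (A B B₀ : Submodule k H) (hB : Disjoint B B₀)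
    (hA : ∀ d l, In A l → Q.op d l ∈ A)
    (hΩ : ∀ d l, In A l → ∀ x ∈ B ⊔ B₀, Q.op d (x ::ₘ l) ∈ B ⊔ B₀)
    (j : J) {G E : H} (hG : G ∈ A) (hE : E ∈ A) (dv : Q.IsDiv G fun d => d j)
    (dv0 : ∀ d, d j = 0 → ∀ x ∈ B ⊔ B₀, Q.op d (x ::ₘ {G}) = 0)
    (dv1 : ∀ d, d j = 0 → Q.op d (G ::ₘ {E}) = 0)
    (h0 : ∀ d l, d j = 0 → In A l → l ≠ 0 → Blk Q B B₀ d l)
    (hN : ∃ e, e j = 0 ∧ ∃ x ∈ B, Q.op e (x ::ₘ {E}) ≠ 0) (d : J →₀ ℕ) (l : Multiset H)
    (hl : In A l) (hl0 : l ≠ 0) : Blk Q B B₀ d l := by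
  classical
  let Ω := B ⊔ B₀
  have hin : ∀ I : Multiset A, In A (I.map (↑)) := fun I a ha => by
    obtain ⟨b, -, rfl⟩ := Multiset.mem_map.1 ha
    exact b.2
  let F : (J →₀ ℕ) → Multiset A → Module.End k Ω := fun d I =>
    (Q.opl d (I.map (↑))).restrict (hΩ d _ (hin I))
  let op : (J →₀ ℕ) → Multiset A → A := fun d I => ⟨Q.op d (I.map (↑)), hA d _ (hin I)⟩
  have hF : ∀ d I (x : Ω), (F d I x : H) = Q.op d (x ::ₘ I.map (↑)) := fun _ _ _ => rfl
  have hc : IsCompl (B.comap Ω.subtype) (B₀.comap Ω.subtype) := by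
    constructor
    · rw [disjoint_iff, ← Submodule.comap_inf, hB.eq_bot, Submodule.comap_bot,
        Submodule.ker_subtype]
    · rw [codisjoint_iff, eq_top_iff]
      rintro ⟨x, hx⟩ -
      obtain ⟨y, hy, z, hz, rfl⟩ := Submodule.mem_sup.1 hx
      exact Submodule.mem_sup.2 ⟨⟨y, Submodule.mem_sup_left hy⟩, hy,
        ⟨z, Submodule.mem_sup_right hz⟩, hz, rfl⟩
  let π : Module.End k Ω := Submodule.projection _ _ hc
  have p1 : ∀ x : Ω, (x : H) ∈ B → π x = x := fun x hx =>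
    Submodule.projection_apply_left hc (⟨x, hx⟩ : B.comap Ω.subtype)
  have p2 : ∀ x : Ω, π x = 0 ↔ (x : H) ∈ B₀ := fun x => Submodule.projection_apply_eq_zero_iff hc
  have p3 : ∀ x : Ω, (π x : H) ∈ B := fun x => Submodule.projection_apply_mem hc x
  have p4 : ∀ x : Ω, ((x - π x : Ω) : H) ∈ B₀ := fun x => (p2 _).1 (by
    rw [map_sub, p1 _ (p3 x), sub_self])
  have hiff : ∀ d (I : Multiset A), F d I ∈ Scal k π ↔ Blk Q B B₀ d (I.map (↑)) := by
    intro d I
    constructor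
    · rintro ⟨c, h1, h2⟩
      refine ⟨⟨c, fun x hx => ?_⟩, fun x hx => ?_⟩
      · have h3 := LinearMap.congr_fun h1 ⟨x, Submodule.mem_sup_left hx⟩
        rw [Module.End.mul_apply, LinearMap.smul_apply, p1 _ hx] at h3
        exact congrArg Subtype.val h3
      · have h3 := LinearMap.congr_fun h2 ⟨x, Submodule.mem_sup_right hx⟩
        rw [Module.End.mul_apply, LinearMap.smul_apply,
          (p2 ⟨x, Submodule.mem_sup_right hx⟩).2 hx, smul_zero] at h3
        exact (p2 _).1 h3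
    · rintro ⟨⟨c, h1⟩, h2⟩
      have h3 : ∀ x, F d I (π x) = c • π x := fun x => Subtype.ext (h1 _ (p3 x))
      refine ⟨c, LinearMap.ext h3, LinearMap.ext fun x => ?_⟩
      have h4 : π (F d I (x - π x)) = 0 := (p2 _).2 (h2 _ (p4 x))
      rw [map_sub, map_sub, h3, map_smul, p1 _ (p3 x), sub_eq_zero] at h4
      exact h4
  obtain ⟨I, rfl⟩ : ∃ I : Multiset A, I.map (↑) = l :=
    ⟨l.attach.map fun x => ⟨x.1, hl x.1 x.2⟩, by simp [Multiset.map_map]⟩
  refine (hiff d I).1 (scal_of (F := F) (op := op) (LinearMap.ext fun x => p1 _ (p3 x)) j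
    ⟨G, hG⟩ ⟨E, hE⟩ (fun d I a b => ?_) (fun d I => ?_) (fun d I hI => ?_) (fun d hd => ?_)
    (fun d I hd => ?_) (fun d I hd hI => ?_) ?_ d I fun h => hl0 (by rw [h, Multiset.map_zero]))
  · ext x
    let φ : Module.End k Ω →+ H :=
      Ω.subtype.toAddMonoidHom.comp (LinearMap.applyₗ (R := k) x).toAddMonoidHom
    change φ _ = φ _
    rw [map_cv, map_cv, cv_swap, cv_swap d I fun a₁ b₁ c e => φ (F a₁ (a ::ₘ b₁) * F c (b ::ₘ e))]
    have h := Q.wdvv d (I.map (↑)) b a x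
    simp only [antidiagonal_map, Multiset.map_map] at h
    convert h using 1
    · refine sum_congr rfl fun p _ => congrArg _ (Multiset.map_congr rfl fun q _ => ?_)
      change Q.op p.2 (x ::ₘ (op p.1 (a ::ₘ b ::ₘ q.1) ::ₘ q.2).map (↑)) = _
      simp only [Multiset.map_cons, Function.comp, op]
      rw [Multiset.cons_swap, Multiset.cons_swap (a : H)]
    · refine sum_congr rfl fun p _ => congrArg _ (Multiset.map_congr rfl fun q _ => ?_)
      change Q.op p.2 (Q.op p.1 (x ::ₘ (b ::ₘ q.1).map (↑)) ::ₘ (a ::ₘ q.2).map (↑)) = _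
      simp only [Multiset.map_cons, Function.comp]
      rw [Multiset.cons_swap (x : H)]
  · ext x
    rw [hF, Multiset.map_cons, Multiset.cons_swap]
    exact Q.op_zero _ _
  · ext x
    rw [hF, Multiset.map_cons, Multiset.cons_swap, dv]
    · rfl
    · have := Multiset.card_pos.2 hI
      rw [Multiset.card_cons, Multiset.card_map]
      omega
  · ext x
    exact dv0 d hd x x.2
  · refine Subtype.ext ?_
    change Q.op d ((_ ::ₘ _ ::ₘ I).map (↑)) = 0
    rw [Multiset.map_cons, Multiset.map_cons]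
    by_cases h : I = 0
    · rw [h]
      exact dv1 d hd
    · have := Multiset.card_pos.2 h
      rw [dv]
      · simp [hd]
      · rw [Multiset.card_cons, Multiset.card_map]
        omega
  · exact (hiff d I).2 (h0 d _ hd (hin I) fun h => hI (Multiset.map_eq_zero.1 h))
  · obtain ⟨e, he, x, hx, h⟩ := hN
    refine ⟨e, he, fun h1 => h ?_⟩
    have h3 := LinearMap.congr_fun h1 ⟨x, Submodule.mem_sup_left hx⟩
    rw [Module.End.mul_apply, p1 _ hx] at h3
    exact congrArg Subtype.val h3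

end Hyc

end Crest.Agent.X262.Bl53
end

-- ▼ part X262/Bl53/Cls

/-!
# Row 262, (BL) + (PR) (helper53): the class level

* `bc_uni`, `pair` : base change, the pairing over the centre;
* `Dat G b`        : an embedding of the blow-up with the factors `H`, `G` and what is known;
* `Dat.blk`, `Dat.pr`.
-/

set_option autoImplicit false

noncomputable section

namespace Crest.Agent.X262.Bl53

open Crest.Agent.X277 Crest.Agent.X277.Lef Crest.Agent.X277.AN.G1 Crest.Agent.X277.BD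
open Crest.Agent.X277.BD.Br (On oP oP_mem)
open Crest.Agent.X262.Coh Crest.Agent.X262.Gwb Crest.Agent.X262.Chn Crest.Agent.X262.Ult

variable {C : Th} {G : Gw C} {K : Type} [Field K] [Algebra ℂ K]

section Div

variable (hG : G.Ax) {Y : SV} {m : Emb Y} {d : m.J →₀ ℕ} {j k : m.J}
include hG

theorem op_one (hj : d j ≠ 0) (x : C.H Y) : G.op m d (1 ::ₘ {x}) = 0 := by
  have h1 := hG.dvz m j d (1 ::ₘ {x}) (by simp)
  have h2 : G.op m d (1 ::ₘ m.h C j ::ₘ {x}) = 0 := hG.str m d _ (by simp)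
  rw [Multiset.cons_swap] at h2
  exact (smul_eq_zero_iff_right (Nat.cast_ne_zero.2 hj)).1 (h1.symm.trans h2)

theorem op_h (hd : d ≠ 0) (hk : d k = 0) (x : C.H Y) : G.op m d (m.h C k ::ₘ {x}) = 0 := by
  obtain ⟨j, hj⟩ := Finsupp.ne_iff.1 hd
  have h1 := hG.dvz m j d (m.h C k ::ₘ {x}) (by simp)
  have h2 := hG.dvz m k d (m.h C j ::ₘ {x}) (by simp)
  beta_reduce at h1 h2
  rw [hk, Nat.cast_zero, zero_smul, Multiset.cons_swap] at h2
  exact (smul_eq_zero_iff_right (Nat.cast_ne_zero.2 hj)).1 (h1.symm.trans h2)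

end Div

variable (A : C.Ax)

section Bc

include A

/-- base change in a uniform shape -/
theorem bc_uni {D X B : SV} {j : Hom D X} {a : BD ℂ X.F} (hj : IsDv j a) (u : Hom B X) :
    ∃ (ι : Type) (_ : Fintype ι) (E : ι → SV) (v : ∀ i, Hom (E i) B) (w : ∀ i, Hom (E i) D)
      (γ : ∀ i, C.H (E i)), (∀ i z, j.map ((w i).map z) = u.map ((v i).map z)) ∧
      ∀ x, C.pb u (C.push j x) = ∑ i, C.push (v i) (γ i * C.pb (w i) x) := by
  rcases Int23.bc_gen A hj u with ⟨w, h1, h2⟩ | ⟨ι, _, E, v, w, m, -, h1, h2⟩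
  · refine ⟨Unit, inferInstance, fun _ => B, fun _ => idH B, fun _ => w,
      fun _ => C.pb u (C.c1 X a), fun _ z => ?_, fun x => ?_⟩
    · rw [Cns.idM_map, ← h1, Mor.comp_map]
    · rw [h2, Fintype.sum_unique, A.pd.push_id A.man]
  · refine ⟨ι, inferInstance, E, v, w, fun i => (m i : C.H (E i)), fun i z => ?_, fun x => ?_⟩
    · rw [← Mor.comp_map, h1, Mor.comp_map]
    · rw [h2]
      exact Finset.sum_congr rfl fun i _ => by rw [← nsmul_eq_mul, map_nsmul]

variable (b : Bw K)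

omit A in
theorem sq (z : b.E.Pt) : (mor b.ge).map (b.j.map z) = b.i.map (b.π.map z) := by
  have h := congrFun b.comm z
  rwa [Mor.comp_map, Mor.comp_map] at h

theorem pair0 {Q : SV} (g : Hom Q b.Z) (ν : Hom Q (sv b.hi))
    (h : ∀ z, b.i.map (g.map z) = (mor b.ge).map (ν.map z)) (σ τ : C.H b.Z) :
    C.pb g σ * C.pb ν (b.t C τ) = C.pb ν (b.t C (σ * τ)) := by
  obtain ⟨ι, _, E, v, w, γ, h1, h2⟩ := bc_uni A b.dv ν
  rw [Bw.t_apply, Bw.t_apply, h2, h2, Finset.mul_sum]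
  refine Finset.sum_congr rfl fun i _ => ?_
  rw [← A.pd.push_proj', map_mul (C.pb b.π), map_mul (C.pb (w i)), mul_left_comm,
    A.man.pb_sq (μ := g) (ν := v i) (μ' := b.π) (ν' := w i) fun z =>
      b.emb.1 (by rw [h, ← h1, sq])]

/-- **the pairing over the centre** -/
theorem pair {Q : SV} (μ ν : Hom Q (sv b.hi))
    (h : ∀ z, (mor b.ge).map (μ.map z) = (mor b.ge).map (ν.map z)) (σ τ : C.H b.Z) :
    C.pb μ (b.t C σ) * C.pb ν (b.t C τ) = C.pb μ (b.t C 1) * C.pb ν (b.t C (σ * τ)) := by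
  obtain ⟨ι, _, E, v, w, γ, h1, h2⟩ := bc_uni A b.dv μ
  rw [Bw.t_apply C b σ, Bw.t_apply C b 1, h2, h2, Finset.sum_mul, Finset.sum_mul]
  refine Finset.sum_congr rfl fun i _ => ?_
  rw [← A.pd.push_proj, ← A.pd.push_proj, map_one, map_one, mul_one, mul_assoc,
    ← A.man.pb_comp b.π, ← A.man.pb_comp ν, ← A.man.pb_comp ν,
    pair0 A b _ _ fun z => by rw [Mor.comp_map, Mor.comp_map, ← h, ← h1, sq]]

theorem t_one : b.t C 1 = C.c1 (sv b.hi) b.e := by
  rw [Bw.t_apply, map_one, A.pl0 b.j b.e b.dv]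

theorem pb_mul_t (x : C.H (sv b.lo)) (σ : C.H b.Z) :
    C.pb (mor b.ge) x * b.t C σ = b.t C (C.pb b.i x * σ) := by
  rw [Bw.t_apply, Bw.t_apply, ← A.pd.push_proj', b.pb_sq A, map_mul (C.pb b.π)]

theorem pb_i_zero {p q : ℕ} (h : 2 < p ∨ 2 < q) {x : C.H (sv b.lo)} (hx : x ∈ C.typ _ p q) :
    C.pb b.i x = 0 :=
  (Submodule.eq_bot_iff _).1 ((b.dimZ ▸ h).elim (A.typ.gt b.Z q) (A.typ.gt' A.man b.Z p)) _
    (A.typ.pb b.i x hx)

theorem t_zero (hL : b.LH C) {σ : C.H b.Z} (hσ : σ ∈ C.typ b.Z 2 0)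
    (h : ∀ τ ∈ C.typ b.Z 0 2, C.itg _ (b.t C σ * b.t C τ) = 0) : σ = 0 :=
  A.typ.eq_zero_of_typ A.man A.pd hσ fun i j hi hj τ hτ => by
    rw [b.dimZ] at hi hj
    obtain rfl : i = 0 := by omega
    obtain rfl : j = 2 := by omega
    have h1 := h τ hτ
    rwa [Bw.itg_t A hL, neg_eq_zero] at h1

theorem itg_up_t {x : C.H (sv b.lo)} (hx : x ∈ Om C b.lo) (τ : C.H b.Z) :
    C.itg _ (C.pb (mor b.ge) x * b.t C τ) = 0 := by
  rw [pb_mul_t A, pb_i_zero A b (Or.inl (by decide)) hx, zero_mul, map_zero, map_zero]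

/-- a class of type `(3,1)` which is orthogonal to the conjugate block -/
theorem mem_up' (F : Frm C) (hL : b.LH C) {x : C.H (sv b.hi)} (hx : x ∈ Om C b.hi)
    (h : ∀ τ ∈ C.typ b.Z 0 2, C.itg _ (x * b.t C τ) = 0) : x ∈ up C b.ge (Om C b.lo) := by
  obtain ⟨x₀, h0, _, ⟨σ, hσ, rfl⟩, rfl⟩ := Bw.span A F hL hx
  obtain rfl : σ = 0 := t_zero A b hL hσ fun τ hτ => by
    have h1 := h τ hτ
    rwa [add_mul, map_add, itg_up_t A b h0, zero_add] at h1
  exact ⟨x₀, h0, by simp⟩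

theorem disj (hL : b.LH C) : Disjoint (b.blk C) (up C b.ge (Om C b.lo)) := by
  rw [Submodule.disjoint_def]
  rintro _ ⟨σ, hσ, rfl⟩ ⟨x, hx, h⟩
  rw [t_zero A b hL hσ fun τ _ => by rw [← h]; exact itg_up_t A b hx τ, map_zero]

theorem sup_eq (F : Frm C) (hL : b.LH C) : b.blk C ⊔ up C b.ge (Om C b.lo) = Om C b.hi := by
  refine le_antisymm (sup_le (b.blk_le A) (up_le A b.ge)) fun x hx => ?_
  obtain ⟨x₀, h0, c, hc, rfl⟩ := Bw.span A F hL hx
  rw [add_comm]
  exact Submodule.add_mem_sup hc ⟨x₀, h0, rfl⟩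

/-- two classes of type `(3,1)` with the same pairings -/
theorem om_ext (F : Frm C) (hL : b.LH C) {x : C.H (sv b.hi)} (hx : x ∈ Om C b.hi)
    (h1 : ∀ τ ∈ C.typ b.Z 0 2, C.itg _ (x * b.t C τ) = 0)
    (h2 : ∀ y ∈ C.typ (sv b.lo) 1 3, C.itg _ (x * C.pb (mor b.ge) y) = 0) : x = 0 := by
  obtain ⟨x₀, h0, rfl⟩ := mem_up' A b F hL hx h1
  rw [A.typ.eq_zero_of_typ A.man A.pd h0 fun i j hi hj y hy => by
    have h4 : (sv b.lo).dim = 4 := b.dimK
    obtain rfl : i = 1 := by omega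
    obtain rfl : j = 3 := by omega
    rw [← F.deg _ (bim_mor b.ge), map_mul]
    exact h2 y hy, map_zero]

end Bc

variable (G) in
/-- an embedding of the blow-up and what is known about it -/
structure Dat (b : Bw K) where
  /-- the embedding -/
  m : Emb (sv b.hi)
  /-- the factor of the lower model -/
  jH : m.J
  /-- the factor which contracts the centre -/
  jG : m.J
  lin : ∀ c, (G.Q m).IsLin (C.pb (mor b.ge) c) fun d => d jH = 0
  GE : m.h C jG * b.t C 1 = 0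
  /-- the pairing over the centre -/
  pr : ∀ d l, d jH = 0 → ∀ σ τ, C.itg _ (b.t C τ * G.op m d (b.t C σ ::ₘ l)) =
    C.itg _ (b.t C (σ * τ) * G.op m d (b.t C 1 ::ₘ l))
  noc : ∀ d l, d jG = 0 → d jH ≠ 0 → ∀ σ, σ ∈ C.typ b.Z 2 0 ∨ σ ∈ C.typ b.Z 0 2 →
    G.op m d (b.t C σ ::ₘ l) = 0
  num : ∃ d, d ≠ 0 ∧ d jH = 0 ∧ d jG = 0 ∧
    C.itg _ (b.t C (C.hc b.Z ^ 2) * G.op m d (b.t C 1 ::ₘ {b.t C 1})) ≠ 0

namespace Dat

variable {b : Bw K} (D : Dat G b)

/-- the scalar -/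
def κ (d : D.m.J →₀ ℕ) (l : Multiset (C.H (sv b.hi))) : ℂ :=
  -(C.itg _ (b.t C (C.hc b.Z ^ 2) * G.op D.m d (b.t C 1 ::ₘ l)) / b.Z.dgr)

variable (F : Frm C) (hG : G.Ax) (hL : b.LH C) (h42 : C.typ (sv b.hi) 4 2 = ⊥)
include A F hG hL h42

theorem scal {d : D.m.J →₀ ℕ} (hd : d D.jH = 0) {l : Multiset (C.H (sv b.hi))}
    (hl : In (AA C _) l) {x : C.H (sv b.hi)} (hx : x ∈ b.blk C) :
    G.op D.m d (x ::ₘ l) = D.κ d l • x := by
  obtain ⟨σ, hσ, rfl⟩ := hx
  refine sub_eq_zero.1 (om_ext A b F hL (sub_mem (op_Om A.man A.pd A.typ hG.typ b.dimK h42 _ _ hl (b.t_mem A hσ))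
    (Submodule.smul_mem _ _ (b.t_mem A hσ))) (fun τ hτ => ?_) fun y hy => ?_)
  · have h1 : σ * τ ∈ C.dg b.Z b.Z.dim := by
      rw [b.dimZ]
      exact A.typ.le _ (by norm_num) (A.typ.mul _ hσ hτ)
    rw [sub_mul, map_sub, mul_comm, D.pr d l hd, smul_mul_assoc, map_smul, Bw.itg_t A hL,
      sub_eq_zero]
    conv_lhs => rw [A.pd.top_eq A.man h1, map_smul, smul_mul_assoc, map_smul, b.dimZ]
    simp only [κ, smul_eq_mul]
    ring
  · have h1 : C.pb (mor b.ge) y * b.t C σ = 0 := by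
      rw [pb_mul_t A, pb_i_zero A b (Or.inr (by decide)) hy, zero_mul, map_zero]
    rw [mul_comm, mul_sub, ← D.lin y d hd, mul_smul_comm, h1, Hyc.op_zero, smul_zero, sub_zero,
      map_zero]

theorem keep {d : D.m.J →₀ ℕ} (hd : d D.jG = 0) {l : Multiset (C.H (sv b.hi))}
    (hl : In (AA C _) l) {x : C.H (sv b.hi)} (hx : x ∈ up C b.ge (Om C b.lo)) :
    G.op D.m d (x ::ₘ l) ∈ up C b.ge (Om C b.lo) := by
  refine mem_up' A b F hL (op_Om A.man A.pd A.typ hG.typ b.dimK h42 _ _ hl (up_le A b.ge hx)) fun τ hτ => ?_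
  obtain ⟨x, hx, rfl⟩ := hx
  rw [mul_comm, hG.sym]
  by_cases h : d D.jH = 0
  · change C.itg _ (C.pb (mor b.ge) x * _) = 0
    rw [← D.lin x d h, pb_mul_t A, pb_i_zero A b (Or.inl (by decide)) hx, zero_mul, map_zero,
      Hyc.op_zero, map_zero]
  · rw [D.noc d l hd h τ (Or.inr hτ), mul_zero, map_zero]

omit F hG hL h42 in
theorem t_one_mem : b.t C 1 ∈ AA C (sv b.hi) := by
  rw [t_one A]
  exact Kill52.mem_AA (A.typ.c1 _ _ b.dv.on)

omit A F hG hL h42 in
theorem κ_ne : ∃ d, d ≠ 0 ∧ d D.jH = 0 ∧ d D.jG = 0 ∧ D.κ d {b.t C 1} ≠ 0 :=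
  D.num.imp fun _ h => ⟨h.1, h.2.1, h.2.2.1, neg_ne_zero.2 (div_ne_zero h.2.2.2 b.Z.dgr_ne)⟩

/-- **(BL)** for one embedding -/
theorem blk (d : D.m.J →₀ ℕ) (l : Multiset (C.H (sv b.hi)))
    (hl : In (AA C _) l) (hl0 : l ≠ 0) {x : C.H (sv b.hi)} (hx : x ∈ b.blk C) :
    ∃ c : ℂ, G.op D.m d (x ::ₘ l) = c • x := by
  by_cases h0 : x = 0
  · exact ⟨0, by rw [h0, smul_zero]; exact (G.Q D.m).op_zero _ _⟩
  obtain ⟨a1, -, a3⟩ := opA A.man A.pd A.typ hG.typ _ D.m
  have hE : In (AA C (sv b.hi)) {b.t C 1} := fun a ha =>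
    Multiset.mem_singleton.1 ha ▸ t_one_mem A
  refine (blk_of (G.Q D.m) (AA C _) (b.blk C) (up C b.ge (Om C b.lo)) (disj A b hL)
    (fun d l hl => ?_) (fun d l hl x hx => ?_) D.jG (a1 D.jG) (t_one_mem A) (hG.dvz D.m D.jG)
    (fun d hd x hx => ?_) (fun d hd => ?_) (fun d l hd hl _ => ⟨?_, fun x hx => ?_⟩) ?_
    d l hl hl0).1.imp fun c hc => hc x hx
  · rcases Nat.lt_or_ge (Multiset.card l) 2 with h | h
    · rw [show (G.Q D.m).op d l = 0 from hG.low D.m d l h]
      exact zero_mem _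
    · exact a3 d l hl h
  · rw [sup_eq A b F hL] at hx ⊢
    exact op_Om A.man A.pd A.typ hG.typ b.dimK h42 _ _ hl hx
  · rw [sup_eq A b F hL] at hx
    rcases eq_or_ne d 0 with rfl | h
    · exact ((G.Q D.m).cl x _).trans (Kill52.kl31 A.typ b.dimK h42 hx 1 one_pos _
        (A.typ.c1 _ _ (D.m.reg D.jG).2))
    · exact (congrArg _ (Multiset.cons_swap x _ 0)).trans (op_h hG h hd x)
  · rcases eq_or_ne d 0 with rfl | h
    · exact ((G.Q D.m).cl _ _).trans D.GE
    · exact op_h hG h hd _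
  · by_cases h : d D.jH = 0
    · exact ⟨_, fun x hx => D.scal A F hG hL h42 h hl hx⟩
    · refine ⟨0, ?_⟩
      rintro _ ⟨σ, hσ, rfl⟩
      rw [zero_smul]
      exact D.noc d l hd h σ (Or.inl hσ)
  · exact D.keep A F hG hL h42 hd hl hx
  · obtain ⟨e, -, e1, e2, e3⟩ := D.κ_ne
    refine ⟨e, e2, x, hx, ?_⟩
    rw [show (G.Q D.m).op e (x ::ₘ {b.t C 1}) = _ from D.scal A F hG hL h42 e1 hE hx]
    exact smul_ne_zero e3 h0

include D in
/-- **(PR)** -/
theorem pr' {x : C.H (sv b.hi)} (hx : x ∈ Om C b.hi) (h : G.Eig _ x) :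
    x ∈ up C b.ge (Om C b.lo) ∨ x ∈ b.blk C := by
  obtain ⟨x₀, h0, y, hy, rfl⟩ := Bw.span A F hL hx
  obtain ⟨e, e0, e1, -, e3⟩ := κ_ne D
  have hE : In (AA C (sv b.hi)) {b.t C 1} := fun a ha =>
    Multiset.mem_singleton.1 ha ▸ t_one_mem A
  obtain ⟨j, hj⟩ := Finsupp.ne_iff.1 e0
  obtain ⟨c, hc⟩ := h D.m e {b.t C 1} hE
  have h1 := D.lin x₀ e e1 1 {b.t C 1}
  rw [mul_one, show (G.Q D.m).op e _ = 0 from op_one hG hj _, mul_zero] at h1
  rw [Gw.op, Hyc.add, h1, zero_add, show (G.Q D.m).op e (y ::ₘ {b.t C 1}) = _ from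
    D.scal A F hG hL h42 e1 hE hy, smul_add] at hc
  have h2 : (D.κ e {b.t C 1} - c) • y = c • C.pb (mor b.ge) x₀ := by
    rw [sub_smul, hc, add_sub_cancel_right]
  have h3 : (D.κ e {b.t C 1} - c) • y = 0 := Submodule.disjoint_def.1 (disj A b hL) _
    (Submodule.smul_mem _ _ hy) (h2 ▸ Submodule.smul_mem _ _ ⟨x₀, h0, rfl⟩)
  rcases smul_eq_zero.1 h3 with h4 | h4
  · rw [h3, ← sub_eq_zero.1 h4] at h2
    rw [(smul_eq_zero.1 h2.symm).resolve_left e3, zero_add]
    exact Or.inr hy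
  · rw [h4, add_zero]
    exact Or.inl ⟨x₀, h0, rfl⟩

end Dat

end Crest.Agent.X262.Bl53
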